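import Mathlib

/-!
# P198, Stage 2, block GC: limits of uniformly controlled partial charts
-/

namespace P198G

open Metric Set Filter Topology

theorem limit_homeo {Z : Type*} [MetricSpace Z] [CompactSpace Z] (U : Ultrafilter ℕ) (b : Z)
    (D : ℕ → Set Z) (φ : ℕ → Z → ℂ)
    (hdom : ∀ c : ℝ, 0 < c → ∃ B : ℝ, ∀ᶠ n in (U : Filter ℕ), ∀ y, c ≤ dist y b →
      y ∈ D n ∧ ‖φ n y‖ ≤ B)
    (hequi : ∀ c : ℝ, 0 < c → ∀ ε : ℝ, 0 < ε → ∃ δ : ℝ, 0 < δ ∧ ∀ᶠ n in (U : Filter ℕ), ∀ y y',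
      c ≤ dist y b → dist y y' ≤ δ → ‖φ n y' - φ n y‖ ≤ ε)
    (hlow : ∀ c : ℝ, 0 < c → ∀ δ : ℝ, 0 < δ → ∃ τ : ℝ, 0 < τ ∧ ∀ᶠ n in (U : Filter ℕ), ∀ y y',
      c ≤ dist y b → c ≤ dist y' b → δ ≤ dist y y' → τ ≤ ‖φ n y - φ n y'‖)
    (hprop : ∀ M : ℝ, ∃ c : ℝ, 0 < c ∧ ∀ᶠ n in (U : Filter ℕ), ∀ y, dist y b ≤ c → y ∈ D n →
      M ≤ ‖φ n y‖)
    (hopen : ∀ R : ℝ, ∀ᶠ n in (U : Filter ℕ), ∀ w : ℂ, ‖w‖ ≤ R → ∃ z ∈ D n, φ n z = w) :
    ∃ F : Z ≃ₜ OnePoint ℂ, F b = OnePoint.infty ∧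
      (∀ c : ℝ, 0 < c → ∀ ε : ℝ, 0 < ε → ∀ᶠ n in (U : Filter ℕ), ∀ z, c ≤ dist z b →
        z ∈ D n ∧ ∃ w : ℂ, F z = (w : OnePoint ℂ) ∧ ‖φ n z - w‖ < ε) ∧
      (∀ R : ℝ, ∀ ε : ℝ, 0 < ε → ∀ᶠ n in (U : Filter ℕ), ∀ w : ℂ, ‖w‖ ≤ R →
        ∃ z ∈ D n, φ n z = w ∧ dist z (F.symm (w : OnePoint ℂ)) < ε) := by
  classical
  -- pointwise limits
  have hlim : ∀ y : Z, ∃ w : ℂ, y ≠ b → Tendsto (fun n => φ n y) U (𝓝 w) := by
    intro y
    by_cases hy : y = b
    · exact ⟨0, fun h => absurd hy h⟩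
    obtain ⟨B, hB⟩ := hdom (dist y b) (dist_pos.2 hy)
    have hK : ((U.map fun n => φ n y : Ultrafilter ℂ) : Filter ℂ) ≤ 𝓟 (closedBall 0 B) := by
      rw [le_principal_iff, Ultrafilter.mem_coe, Ultrafilter.mem_map]
      filter_upwards [hB] with n hn
      simpa using (hn y le_rfl).2
    obtain ⟨w, -, hw⟩ := (isCompact_closedBall (0 : ℂ) B).ultrafilter_le_nhds _ hK
    exact ⟨w, fun _ => hw⟩
  choose F₀ hF₀ using hlim
  -- continuity estimate for the limit
  have hequi0 : ∀ c : ℝ, 0 < c → ∀ ε : ℝ, 0 < ε → ∃ δ : ℝ, 0 < δ ∧ ∀ y y', c ≤ dist y b →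
      dist y y' ≤ δ → ‖F₀ y' - F₀ y‖ ≤ ε := by
    intro c hc ε hε
    obtain ⟨δ, hδ, h⟩ := hequi c hc ε hε
    refine ⟨min δ (c / 2), by positivity, fun y y' hy hyy' => ?_⟩
    have hyb : y ≠ b := by
      rintro rfl
      rw [dist_self] at hy
      linarith
    have hy'b : y' ≠ b := by
      rintro rfl
      have : dist y y' ≤ c / 2 := hyy'.trans (min_le_right _ _)
      linarith
    refine le_of_tendsto (((hF₀ y' hy'b).sub (hF₀ y hyb)).norm) ?_
    filter_upwards [h] with n hn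
    exact hn y y' hy (hyy'.trans (min_le_left _ _))
  -- uniform convergence
  have hunif : ∀ c : ℝ, 0 < c → ∀ ε : ℝ, 0 < ε → ∀ᶠ n in (U : Filter ℕ), ∀ z, c ≤ dist z b →
      ‖φ n z - F₀ z‖ < ε := by
    intro c hc ε hε
    obtain ⟨δ₁, hδ₁, h1⟩ := hequi c hc (ε / 4) (by positivity)
    obtain ⟨δ₂, hδ₂, h2⟩ := hequi0 c hc (ε / 4) (by positivity)
    set X : Set Z := {z | c ≤ dist z b} with hX
    have hXc : IsCompact X := by
      have : IsClosed X := isClosed_le continuous_const (by fun_prop)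
      exact this.isCompact
    obtain ⟨t, htX, htfin, hcov⟩ := totallyBounded_iff_subset.1 hXc.totallyBounded
      {p | dist p.1 p.2 < min δ₁ δ₂} (Metric.dist_mem_uniformity (lt_min hδ₁ hδ₂))
    have h3 : ∀ᶠ n in (U : Filter ℕ), ∀ y ∈ t, ‖φ n y - F₀ y‖ < ε / 4 := by
      refine (htfin.eventually_all).2 fun y hy => ?_
      have hyb : y ≠ b := by
        rintro rfl
        have : c ≤ dist y y := htX hy
        rw [dist_self] at this
        linarith
      have := (hF₀ y hyb)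
      rw [Metric.tendsto_nhds] at this
      filter_upwards [this (ε / 4) (by positivity)] with n hn
      rwa [dist_eq_norm] at hn
    filter_upwards [h1, h3] with n hn1 hn3 z hz
    have hzX : z ∈ X := hz
    obtain ⟨y, hyt, hzy⟩ := mem_iUnion₂.1 (hcov hzX)
    have hd : dist z y < min δ₁ δ₂ := hzy
    have e1 := hn1 z y hz (hd.le.trans (min_le_left _ _))
    have e2 := h2 z y hz (hd.le.trans (min_le_right _ _))
    have e3 := hn3 y hyt
    have e : φ n z - F₀ z = -(φ n y - φ n z) + (φ n y - F₀ y) + (F₀ y - F₀ z) := by ring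
    rw [e]
    calc _ ≤ ‖-(φ n y - φ n z) + (φ n y - F₀ y)‖ + ‖F₀ y - F₀ z‖ := norm_add_le _ _
      _ ≤ ‖-(φ n y - φ n z)‖ + ‖φ n y - F₀ y‖ + ‖F₀ y - F₀ z‖ := by
        gcongr
        exact norm_add_le _ _
      _ < ε := by
        rw [norm_neg]
        linarith
  -- injectivity
  have hinj : ∀ y y', y ≠ b → y' ≠ b → F₀ y = F₀ y' → y = y' := by
    intro y y' hy hy' he
    by_contra hne
    have hd : 0 < dist y y' := dist_pos.2 hne
    have hc : 0 < min (dist y b) (dist y' b) := lt_min (dist_pos.2 hy) (dist_pos.2 hy')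
    obtain ⟨τ, hτ, h⟩ := hlow _ hc _ hd
    have h1 : τ ≤ ‖F₀ y - F₀ y'‖ := by
      refine ge_of_tendsto (((hF₀ y hy).sub (hF₀ y' hy')).norm) ?_
      filter_upwards [h] with n hn
      exact hn y y' (min_le_left _ _) (min_le_right _ _) le_rfl
    rw [he, sub_self, norm_zero] at h1
    linarith
  -- properness
  have hprop0 : ∀ M : ℝ, ∃ c : ℝ, 0 < c ∧ ∀ y, y ≠ b → dist y b ≤ c → M ≤ ‖F₀ y‖ := by
    intro M
    obtain ⟨c, hc, h⟩ := hprop M
    refine ⟨c, hc, fun y hy hyc => ?_⟩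
    refine ge_of_tendsto (hF₀ y hy).norm ?_
    obtain ⟨B, hB⟩ := hdom (dist y b) (dist_pos.2 hy)
    filter_upwards [h, hB] with n hn hn2
    exact hn y hyc (hn2 y le_rfl).1
  -- surjectivity
  have hsurj : ∀ w : ℂ, ∃ y, y ≠ b ∧ F₀ y = w := by
    intro w
    obtain ⟨c, hc, h⟩ := hprop (‖w‖ + 1)
    have h2 : ∀ᶠ n in (U : Filter ℕ), ∃ z, c ≤ dist z b ∧ φ n z = w := by
      filter_upwards [h, hopen ‖w‖] with n hn hn2
      obtain ⟨z, hzD, hz⟩ := hn2 w le_rfl
      refine ⟨z, ?_, hz⟩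
      by_contra hlt
      push Not at hlt
      have := hn z hlt.le hzD
      rw [hz] at this
      linarith
    have h3 : ∃ ζ : ℕ → Z, ∀ᶠ n in (U : Filter ℕ), c ≤ dist (ζ n) b ∧ φ n (ζ n) = w := by
      have : ∀ n, ∃ z, (∃ z', c ≤ dist z' b ∧ φ n z' = w) → c ≤ dist z b ∧ φ n z = w := by
        intro n
        by_cases hex : ∃ z', c ≤ dist z' b ∧ φ n z' = w
        · obtain ⟨z, hz⟩ := hex
          exact ⟨z, fun _ => hz⟩
        · exact ⟨b, fun h => absurd h hex⟩
      choose ζ hζ using this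
      exact ⟨ζ, h2.mono fun n hn => hζ n hn⟩
    obtain ⟨ζ, hζ⟩ := h3
    obtain ⟨y, -, hy⟩ := isCompact_univ.ultrafilter_le_nhds (U.map ζ) (by simp)
    have hy' : Tendsto ζ U (𝓝 y) := hy
    have hyc : c ≤ dist y b := by
      refine ge_of_tendsto (hy'.dist tendsto_const_nhds) ?_
      filter_upwards [hζ] with n hn using hn.1
    have hyb : y ≠ b := by
      rintro rfl
      rw [dist_self] at hyc
      linarith
    refine ⟨y, hyb, ?_⟩
    -- `φ n y → w`
    have h4 : Tendsto (fun n => φ n y) U (𝓝 w) := by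
      rw [Metric.tendsto_nhds]
      intro ε hε
      obtain ⟨δ, hδ, h5⟩ := hequi c hc (ε / 2) (by positivity)
      have h6 : ∀ᶠ n in (U : Filter ℕ), dist (ζ n) y < δ := (Metric.tendsto_nhds.1 hy') δ hδ
      filter_upwards [h5, h6, hζ] with n hn5 hn6 hn7
      have := hn5 y (ζ n) hyc (by rw [dist_comm]; exact hn6.le)
      rw [hn7.2] at this
      rw [dist_comm, dist_eq_norm]
      linarith
    exact tendsto_nhds_unique (hF₀ y hyb) h4
  -- the map to the one-point compactification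
  set F : Z → OnePoint ℂ := fun y => if y = b then OnePoint.infty else (F₀ y : OnePoint ℂ) with hF
  have hFb : F b = OnePoint.infty := by simp [hF]
  have hFy : ∀ y, y ≠ b → F y = (F₀ y : OnePoint ℂ) := fun y hy => by simp [hF, hy]
  have hFinj : Function.Injective F := by
    intro y y' he
    by_cases hy : y = b
    · by_cases hy' : y' = b
      · rw [hy, hy']
      · rw [hy, hFb, hFy y' hy'] at he
        exact absurd he (OnePoint.infty_ne_coe _)
    · by_cases hy' : y' = b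
      · rw [hy', hFb, hFy y hy] at he
        exact absurd he (OnePoint.coe_ne_infty _)
      · rw [hFy y hy, hFy y' hy'] at he
        exact hinj y y' hy hy' (OnePoint.coe_injective he)
  have hFsurj : Function.Surjective F := by
    intro w
    induction w using OnePoint.rec with
    | infty => exact ⟨b, hFb⟩
    | coe w =>
      obtain ⟨y, hy, hyw⟩ := hsurj w
      exact ⟨y, by rw [hFy y hy, hyw]⟩
  have hFcont : Continuous F := by
    rw [continuous_iff_continuousAt]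
    intro y
    by_cases hy : y = b
    · subst hy
      rw [ContinuousAt, hFb]
      rw [OnePoint.hasBasis_nhds_infty.tendsto_right_iff]
      rintro s ⟨hsc, hsK⟩
      -- `s` is bounded
      obtain ⟨M, hM⟩ := hsK.isBounded.exists_norm_le
      obtain ⟨c, hc, h⟩ := hprop0 (M + 1)
      filter_upwards [closedBall_mem_nhds y hc] with z hz
      by_cases hzy : z = y
      · rw [hzy, hFb]
        exact Or.inr rfl
      · rw [hFy z hzy]
        refine Or.inl ⟨F₀ z, fun hmem => ?_, rfl⟩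
        have h1 := h z hzy hz
        have h2 := hM _ hmem
        linarith
    · have h1 : ContinuousAt F₀ y := by
        rw [Metric.continuousAt_iff]
        intro ε hε
        obtain ⟨δ, hδ, h⟩ := hequi0 (dist y b) (dist_pos.2 hy) (ε / 2) (by positivity)
        refine ⟨δ, hδ, fun {z} hz => ?_⟩
        have := h y z le_rfl (by rw [dist_comm]; exact hz.le)
        rw [dist_eq_norm]
        linarith
      have h2 : ContinuousAt (fun z => (F₀ z : OnePoint ℂ)) y :=
        (OnePoint.continuous_coe.continuousAt).comp h1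
      refine h2.congr ?_
      filter_upwards [isOpen_ne.mem_nhds hy] with z hz
      exact (hFy z hz).symm
  let e : Z ≃ OnePoint ℂ := Equiv.ofBijective F ⟨hFinj, hFsurj⟩
  let Fh : Z ≃ₜ OnePoint ℂ := Continuous.homeoOfEquivCompactToT2 (f := e) hFcont
  have hFh : ∀ y, Fh y = F y := fun y => rfl
  refine ⟨Fh, hFb, ?_, ?_⟩
  · intro c hc ε hε
    obtain ⟨B, hB⟩ := hdom c hc
    filter_upwards [hunif c hc ε hε, hB] with n hn hnB z hz
    have hzb : z ≠ b := by
      rintro rfl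
      rw [dist_self] at hz
      linarith
    exact ⟨(hnB z hz).1, F₀ z, by rw [hFh, hFy z hzb], hn z hz⟩
  · intro R ε hε
    obtain ⟨c, hc, h⟩ := hprop (R + 1)
    obtain ⟨τ, hτ, hτ2⟩ := hlow c hc ε hε
    -- points `F⁻¹ w` are far from `b`
    obtain ⟨c₂, hc₂, h₂⟩ := hprop0 (R + 1)
    obtain ⟨τ, hτ, hτ2⟩ := hlow (min c c₂) (lt_min hc hc₂) ε hε
    filter_upwards [h, hopen R, hτ2, hunif c₂ hc₂ τ hτ] with n hn hn2 hn3 hn4 w hw
    obtain ⟨z, hzD, hz⟩ := hn2 w hw
    refine ⟨z, hzD, hz, ?_⟩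
    have hzc : c ≤ dist z b := by
      by_contra hlt
      push Not at hlt
      have := hn z hlt.le hzD
      rw [hz] at this
      linarith
    set y := Fh.symm (w : OnePoint ℂ) with hy
    have hFy1 : F y = (w : OnePoint ℂ) := by
      rw [← hFh, hy, Homeomorph.apply_symm_apply]
    have hyb : y ≠ b := by
      intro he
      rw [he, hFb] at hFy1
      exact absurd hFy1 (OnePoint.infty_ne_coe _)
    have hF0y : F₀ y = w := by
      rw [hFy y hyb] at hFy1
      exact OnePoint.coe_injective hFy1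
    have hyc : c₂ ≤ dist y b := by
      by_contra hlt
      push Not at hlt
      have := h₂ y hyb hlt.le
      rw [hF0y] at this
      linarith
    by_contra hlt
    push Not at hlt
    have e1 := hn3 z y ((min_le_left _ _).trans hzc) ((min_le_right _ _).trans hyc) hlt
    have e2 := hn4 y hyc
    rw [hz] at e1
    rw [hF0y, norm_sub_rev] at e2
    linarith

end P198G
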