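import Vale.Agent.P198.GC.Estimates2
import Vale.Agent.P198.GC.Limit

/-!
# P198, Stage 2, block GC: the global chart
-/

namespace P198G

open Metric Set Filter Topology P198Q

theorem LChart.mono {Z : Type*} [MetricSpace Z] {f : Z → ℂ} {z₀ : Z} {ρ lam H lam' H' : ℝ}
    (h : LChart f z₀ ρ lam H) (hl : lam ≤ lam') (hH : H ≤ H') : LChart f z₀ ρ lam' H' :=
  ⟨h.pos, h.cont, h.inj, h.wqs.mono (subset_refl _) hl hH, h.opn⟩

theorem LChart.exists_ne {Z : Type*} [MetricSpace Z] {f : Z → ℂ} {z₀ : Z} {ρ lam H : ℝ}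
    (h : LChart f z₀ ρ lam H) : ∃ z : Z, z ≠ z₀ := by
  by_contra hcon
  push Not at hcon
  have h1 : f '' closedBall z₀ ρ ⊆ {f z₀} := by
    rintro _ ⟨z, -, rfl⟩
    rw [hcon z]
    rfl
  have h2 : ({f z₀} : Set ℂ) ∈ 𝓝 (f z₀) := mem_of_superset h.opn h1
  have h3 : (𝓝[≠] (f z₀)).NeBot := inferInstance
  have h4 : ({f z₀}ᶜ ∩ {f z₀} : Set ℂ).Nonempty :=
    Filter.NeBot.nonempty_of_mem h3 (inter_mem self_mem_nhdsWithin (mem_nhdsWithin_of_mem_nhds h2))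
  obtain ⟨x, hx, hx'⟩ := h4
  exact hx hx'

theorem exists_zoom {G Z : Type*} [Group G] [MetricSpace Z] [MulAction G Z] [CompactSpace Z]
    [ConnectedSpace Z] (q : QM G Z) (hP : Planar Z) {f : Z → ℂ} {z₀ : Z} {ρ lam H : ℝ}
    (hf : LChart f z₀ ρ lam H) :
    ∃ (h : ℕ → G) (r : ℕ → ℝ) (b : Z) (F : Z ≃ₜ OnePoint ℂ), Zoom f z₀ ρ h r b F := by
  classical
  have hne := hf.exists_ne
  -- normalise the constants
  have hf' : LChart f z₀ ρ (max lam 1) (max H 1) := hf.mono (le_max_left _ _) (le_max_left _ _)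
  have hlam : (1 : ℝ) ≤ max lam 1 := le_max_right _ _
  have hH : (1 : ℝ) ≤ max H 1 := le_max_right _ _
  have hC := q.one_le_C
  set A : ℝ := q.C * q.C with hA
  have hA1 : 1 ≤ A := by nlinarith
  have hρ := hf.pos
  -- the group elements
  have hg : ∀ n : ℕ, ∃ g : G, q.s g ≤ q.C * (1 / ((n : ℝ) + 1)) ∧
      dist z₀ (q.ζ g) ≤ A * q.s g := by
    intro n
    have h1 : (0 : ℝ) < 1 / ((n : ℝ) + 1) := by positivity
    have h2 : 1 / ((n : ℝ) + 1) ≤ 1 := by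
      rw [div_le_one (by positivity)]
      have : (0 : ℝ) ≤ n := Nat.cast_nonneg n
      linarith
    obtain ⟨g, hg1, hg2, hg3⟩ := q.q4 z₀ _ h1 h2
    refine ⟨g, hg1, hg3.trans ?_⟩
    rw [hA, mul_assoc]
    gcongr
  choose g hg1 hgA using hg
  have hslim : Tendsto (fun n => q.s (g n)) atTop (𝓝 0) := by
    have h1 : Tendsto (fun n : ℕ => q.C * (1 / ((n : ℝ) + 1))) atTop (𝓝 (q.C * 0)) :=
      tendsto_one_div_add_atTop_nhds_zero_nat.const_mul _
    rw [mul_zero] at h1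
    exact squeeze_zero (fun n => (q.s_pos _).le) hg1 h1
  have hm : ∀ n, ∃ m, q.s (g n) ≤ ρ → IsRad f z₀ (q.s (g n)) m := by
    intro n
    by_cases h : q.s (g n) ≤ ρ
    · obtain ⟨m, hm⟩ := exists_isRad hf.cont (q.s_pos _).le h
      exact ⟨m, fun _ => hm⟩
    · exact ⟨0, fun h' => absurd h' h⟩
  choose m hm using hm
  -- ultrafilter
  set U : Ultrafilter ℕ := hyperfilter ℕ with hU
  have hUtop : (U : Filter ℕ) ≤ atTop := Nat.hyperfilter_le_atTop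
  obtain ⟨b, -, hb⟩ := isCompact_univ.ultrafilter_le_nhds (U.map fun n => q.ζ (g n)⁻¹) (by simp)
  have hb' : Tendsto (fun n => q.ζ (g n)⁻¹) U (𝓝 b) := hb
  have hsmall : ∀ σ : ℝ, 0 < σ → ∀ᶠ n in (U : Filter ℕ), q.s (g n) ≤ σ := fun σ hσ =>
    hUtop ((hslim.eventually (ge_mem_nhds hσ)))
  have hrad : ∀ᶠ n in (U : Filter ℕ), IsRad f z₀ (q.s (g n)) (m n) :=
    (hsmall ρ hρ).mono fun n hn => hm n hn
  have hmpos : ∀ᶠ n in (U : Filter ℕ), 0 < m n := by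
    filter_upwards [hsmall ρ hρ, hrad] with n h1 h2
    exact h2.pos hf.inj (q.s_pos _) h1 hne
  have hpole : ∀ c : ℝ, 0 < c → ∀ᶠ n in (U : Filter ℕ), dist (q.ζ (g n)⁻¹) b < c :=
    fun c hc => (Metric.tendsto_nhds.1 hb') c hc
  set D : ℕ → Set Z := fun n => {y | (g n)⁻¹ • y ∈ closedBall z₀ ρ} with hD
  set φ : ℕ → Z → ℂ := fun n y => (f ((g n)⁻¹ • y) - f z₀) / (m n : ℂ) with hφ
  have hφsub : ∀ n y y', φ n y' - φ n y = (f ((g n)⁻¹ • y') - f ((g n)⁻¹ • y)) / (m n : ℂ) := by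
    intro n y y'
    simp only [hφ]
    rw [← sub_div]
    congr 1
    ring
  have hnorm : ∀ n, 0 < m n → ∀ w : ℂ, ‖w / (m n : ℂ)‖ = ‖w‖ / m n := by
    intro n hn w
    rw [norm_div, Complex.norm_real, Real.norm_eq_abs, abs_of_pos hn]
  have hfar : ∀ c : ℝ, 0 < c → ∀ᶠ n in (U : Filter ℕ), ∀ y, c ≤ dist y b →
      c / 2 ≤ dist y (q.ζ (g n)⁻¹) := by
    intro c hc
    filter_upwards [hpole (c / 2) (half_pos hc)] with n hn y hy
    have := dist_triangle y (q.ζ (g n)⁻¹) b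
    linarith
  obtain ⟨F, hFb, hF1, hF2⟩ := limit_homeo U b D φ
    (by
      -- domain and bound
      intro c hc
      obtain ⟨σ, hσ, hmem, ⟨B, hB, hbd⟩, -⟩ :=
        bound_lower q hP hf' hlam hH hA1 hne (c := c / 2) (half_pos hc)
      refine ⟨B, ?_⟩
      filter_upwards [hsmall σ hσ, hrad, hmpos, hfar c hc] with n h1 h2 h3 h4 y hy
      refine ⟨hmem _ h1 (hgA n) y (h4 y hy), ?_⟩
      show ‖(f ((g n)⁻¹ • y) - f z₀) / (m n : ℂ)‖ ≤ B
      rw [hnorm n h3, div_le_iff₀ h3]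
      exact hbd _ h1 (hgA n) _ h2 y (h4 y hy))
    (by
      intro c hc ε hε
      obtain ⟨δ, σ, hδ, hσ, h⟩ := equicont q hP hf' hlam hH hA1 hne (c := c / 2) (half_pos hc) hε
      refine ⟨δ, hδ, ?_⟩
      filter_upwards [hsmall σ hσ, hrad, hmpos, hfar c hc] with n h1 h2 h3 h4 y y' hy hyy'
      rw [hφsub, hnorm n h3, div_le_iff₀ h3]
      exact h _ h1 (hgA n) _ h2 y y' (h4 y hy) hyy')
    (by
      intro c hc δ hδ
      obtain ⟨σ, hσ, -, -, hlow⟩ :=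
        bound_lower q hP hf' hlam hH hA1 hne (c := c / 2) (half_pos hc)
      obtain ⟨τ, hτ, h⟩ := hlow δ hδ
      refine ⟨τ, hτ, ?_⟩
      filter_upwards [hsmall σ hσ, hrad, hmpos, hfar c hc] with n h1 h2 h3 h4 y y' hy hy' hyy'
      rw [hφsub, hnorm n h3, le_div_iff₀ h3]
      exact h _ h1 (hgA n) _ h2 y y' (h4 y hy) (h4 y' hy') hyy')
    (by
      intro M
      obtain ⟨c, σ, hc, hσ, h⟩ := proper q hP hf' hlam hH hA1 hne (M := max M 1)
        (lt_of_lt_of_le one_pos (le_max_right _ _))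
      refine ⟨c / 2, half_pos hc, ?_⟩
      filter_upwards [hsmall σ hσ, hrad, hmpos, hpole (c / 2) (half_pos hc)] with n h1 h2 h3 h4 y
        hy hyD
      have h5 : dist y (q.ζ (g n)⁻¹) ≤ c := by
        have := dist_triangle y b (q.ζ (g n)⁻¹)
        rw [dist_comm b] at this
        linarith
      have h6 := h _ h1 (hgA n) _ h2 y h5 hyD
      show M ≤ ‖(f ((g n)⁻¹ • y) - f z₀) / (m n : ℂ)‖
      rw [hnorm n h3, le_div_iff₀ h3]
      refine (mul_le_mul_of_nonneg_right (le_max_left M 1) h3.le).trans h6)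
    (by
      intro R
      -- `f` covers a ball about `f z₀`
      obtain ⟨η, hη, hball⟩ := Metric.mem_nhds_iff.1 hf.opn
      obtain ⟨σ, hσ, hsm⟩ := rad_small (f := f) hf (ε := η / (|R| + 1)) (by positivity)
      filter_upwards [hsmall σ hσ, hrad, hmpos] with n h1 h2 h3 w hw
      have h4 := hsm _ _ h1 h2
      rw [lt_div_iff₀ (by positivity)] at h4
      have h5 : f z₀ + (m n : ℂ) * w ∈ ball (f z₀) η := by
        rw [mem_ball, dist_eq_norm, add_sub_cancel_left, norm_mul, Complex.norm_real,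
          Real.norm_eq_abs, abs_of_pos h3]
        have h6 : ‖w‖ ≤ |R| := hw.trans (le_abs_self R)
        nlinarith [norm_nonneg w]
      obtain ⟨z, hz, hzw⟩ := hball h5
      refine ⟨g n • z, ?_, ?_⟩
      · show (g n)⁻¹ • g n • z ∈ closedBall z₀ ρ
        rwa [inv_smul_smul]
      · show (f ((g n)⁻¹ • g n • z) - f z₀) / (m n : ℂ) = w
        rw [inv_smul_smul, hzw, add_sub_cancel_left]
        have : (m n : ℂ) ≠ 0 := by exact_mod_cast h3.ne'
        field_simp)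
  -- choose a subsequence
  have hmlim : ∀ ε : ℝ, 0 < ε → ∀ᶠ n in (U : Filter ℕ), m n < ε := by
    intro ε hε
    obtain ⟨σ, hσ, hsm⟩ := rad_small (f := f) hf hε
    filter_upwards [hsmall σ hσ, hrad] with n h1 h2 using hsm _ _ h1 h2
  have hsub : ∀ j : ℕ, ∃ n, 0 < m n ∧ m n < 1 / ((j : ℝ) + 1) ∧
      (∀ z, 1 / ((j : ℝ) + 1) ≤ dist z b → z ∈ D n ∧ ∃ w : ℂ, F z = (w : OnePoint ℂ) ∧
        ‖φ n z - w‖ < 1 / ((j : ℝ) + 1)) ∧
      ∀ w : ℂ, ‖w‖ ≤ j → ∃ z ∈ D n, φ n z = w ∧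
        dist z (F.symm (w : OnePoint ℂ)) < 1 / ((j : ℝ) + 1) := by
    intro j
    have hj : (0 : ℝ) < 1 / ((j : ℝ) + 1) := by positivity
    obtain ⟨n, hn⟩ := (hmpos.and ((hmlim _ hj).and ((hF1 _ hj _ hj).and (hF2 j _ hj)))).exists
    exact ⟨n, hn.1, hn.2.1, hn.2.2.1, hn.2.2.2⟩
  choose ν hν1 hν2 hν3 hν4 using hsub
  have hevt : ∀ ε : ℝ, 0 < ε → ∀ᶠ j : ℕ in atTop, 1 / ((j : ℝ) + 1) < ε := fun ε hε =>
    (tendsto_one_div_add_atTop_nhds_zero_nat (𝕜 := ℝ)).eventually (gt_mem_nhds hε)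
  refine ⟨fun j => g (ν j), fun j => m (ν j), b, F, hFb, hν1, ?_, ?_, ?_⟩
  · exact squeeze_zero (fun j => (hν1 j).le) (fun j => (hν2 j).le)
      tendsto_one_div_add_atTop_nhds_zero_nat
  · intro K hK hbK ε hε
    -- distance from `K` to `b`
    have hc : ∃ c : ℝ, 0 < c ∧ ∀ z ∈ K, c ≤ dist z b := by
      rcases K.eq_empty_or_nonempty with rfl | hKne
      · exact ⟨1, one_pos, fun z hz => absurd hz (notMem_empty z)⟩
      · obtain ⟨z₁, hz₁, hmin⟩ := hK.exists_isMinOn hKne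
          (show ContinuousOn (fun z => dist z b) K by fun_prop)
        refine ⟨dist z₁ b, dist_pos.2 (fun he => hbK (he ▸ hz₁)), fun z hz => hmin hz⟩
    obtain ⟨c, hc, hKc⟩ := hc
    filter_upwards [hevt c hc, hevt ε hε] with j h1 h2 z hz
    obtain ⟨h3, w, h4, h5⟩ := hν3 j z (h1.le.trans (hKc z hz))
    exact ⟨h3, w, h4, h5.trans h2⟩
  · intro L hL ε hε
    obtain ⟨R, hR⟩ := hL.isBounded.exists_norm_le
    obtain ⟨j₀, hj₀⟩ := exists_nat_ge R
    filter_upwards [hevt ε hε, eventually_ge_atTop j₀] with j h1 h2 w hw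
    have h3 : ‖w‖ ≤ j := (hR w hw).trans (hj₀.trans (by exact_mod_cast h2))
    obtain ⟨z, hz1, hz2, hz3⟩ := hν4 j w h3
    refine ⟨z, hz1, ?_, hz3.trans h1⟩
    have hne0 : (m (ν j) : ℂ) ≠ 0 := by exact_mod_cast (hν1 j).ne'
    have h5 : (f ((g (ν j))⁻¹ • z) - f z₀) / (m (ν j) : ℂ) = w := hz2
    rw [div_eq_iff hne0] at h5
    linear_combination h5

/-- **Block GC.** -/
theorem gcStatement : GCStatement := fun _ _ _ _ _ _ _ q hP _ _ _ _ _ hf =>
  exists_zoom q hP hf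

end P198G
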