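import Vale.Agent.P198.Q.Defs

/-!
# P198, Stage 2, block GC: weakly quasisymmetric local charts and their zooms (definitions)
-/

namespace P198G

open Metric Set Filter Topology P198Q

/-- `f` is weakly quasisymmetric on `X`: with `lam * d(x,y) ≤ d(x,z)` one has
`|f y - f x| ≤ H |f z - f x|`. -/
def WQS {Z : Type*} [MetricSpace Z] (f : Z → ℂ) (X : Set Z) (lam H : ℝ) : Prop :=
  ∀ x ∈ X, ∀ y ∈ X, ∀ z ∈ X, lam * dist x y ≤ dist x z → ‖f y - f x‖ ≤ H * ‖f z - f x‖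

/-- a local chart on the closed ball about `z₀` of radius `ρ` -/
structure LChart {Z : Type*} [MetricSpace Z] (f : Z → ℂ) (z₀ : Z) (ρ lam H : ℝ) : Prop where
  pos : 0 < ρ
  cont : ContinuousOn f (closedBall z₀ ρ)
  inj : InjOn f (closedBall z₀ ρ)
  wqs : WQS f (closedBall z₀ ρ) lam H
  /-- the image is a neighbourhood of `f z₀` -/
  opn : f '' closedBall z₀ ρ ∈ 𝓝 (f z₀)

/-- output of the zoom: `F n z = (f ((h n)⁻¹ • z) - f z₀) / r n` converges to a global chart -/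
structure Zoom {G Z : Type*} [Group G] [MetricSpace Z] [MulAction G Z] (f : Z → ℂ) (z₀ : Z) (ρ : ℝ)
    (h : ℕ → G) (r : ℕ → ℝ) (b : Z) (F : Z ≃ₜ OnePoint ℂ) : Prop where
  Fb : F b = OnePoint.infty
  r_pos : ∀ n, 0 < r n
  r_lim : Tendsto r atTop (𝓝 0)
  /-- locally uniform convergence off `b` -/
  conv : ∀ K : Set Z, IsCompact K → b ∉ K → ∀ ε : ℝ, 0 < ε → ∀ᶠ n in atTop, ∀ z ∈ K,
    (h n)⁻¹ • z ∈ closedBall z₀ ρ ∧
      ∃ w : ℂ, F z = (w : OnePoint ℂ) ∧ ‖(f ((h n)⁻¹ • z) - f z₀) / (r n : ℂ) - w‖ < ε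
  /-- locally uniform convergence of the inverses -/
  conv_inv : ∀ L : Set ℂ, IsCompact L → ∀ ε : ℝ, 0 < ε → ∀ᶠ n in atTop, ∀ w ∈ L, ∃ z : Z,
    (h n)⁻¹ • z ∈ closedBall z₀ ρ ∧ f ((h n)⁻¹ • z) = f z₀ + (r n : ℂ) * w ∧
      dist z (F.symm (w : OnePoint ℂ)) < ε

/-- exact statement of block GC -/
def GCStatement : Prop :=
  ∀ (G Z : Type) [Group G] [MetricSpace Z] [MulAction G Z] [CompactSpace Z] [ConnectedSpace Z]
    (_ : QM G Z) (_ : Planar Z) (f : Z → ℂ) (z₀ : Z) (ρ lam H : ℝ), LChart f z₀ ρ lam H →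
    ∃ (h : ℕ → G) (r : ℕ → ℝ) (b : Z) (F : Z ≃ₜ OnePoint ℂ), Zoom f z₀ ρ h r b F

end P198G
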