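import Vale.Agent.P198.GC.Wqs

/-!
# P198, Stage 2, block GC: uniform estimates for zoomed charts
-/

namespace P198G

open Metric Set Filter Topology P198Q

variable {G Z : Type*} [Group G] [MetricSpace Z] [MulAction G Z]

theorem WQS.mono {f : Z → ℂ} {X : Set Z} {lam H : ℝ} (h : WQS f X lam H) {X' : Set Z}
    {lam' H' : ℝ} (hX : X' ⊆ X) (hl : lam ≤ lam') (hH : H ≤ H') : WQS f X' lam' H' := by
  intro x hx y hy z hz hd
  refine (h x (hX hx) y (hX hy) z (hX hz) ?_).trans ?_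
  · exact (mul_le_mul_of_nonneg_right hl dist_nonneg).trans hd
  · exact mul_le_mul_of_nonneg_right hH (norm_nonneg _)

section inv
variable (q : QM G Z)

theorem inv_upper {c : ℝ} (hc : 0 < c) (g : G) {y y' : Z} (hy : c ≤ dist y (q.ζ g⁻¹))
    (hy' : c ≤ dist y' (q.ζ g⁻¹)) :
    dist (g⁻¹ • y) (g⁻¹ • y') ≤ q.C / c ^ 2 * (q.s g * dist y y') := by
  have h := q.q1_upper g⁻¹ y y'
  rw [q.s_inv] at h
  have h1 : c ≤ max (q.s g) (dist y (q.ζ g⁻¹)) := hy.trans (le_max_right _ _)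
  have h2 : c ≤ max (q.s g) (dist y' (q.ζ g⁻¹)) := hy'.trans (le_max_right _ _)
  have h3 : c * c ≤ max (q.s g) (dist y (q.ζ g⁻¹)) * max (q.s g) (dist y' (q.ζ g⁻¹)) :=
    mul_le_mul h1 h2 hc.le (hc.le.trans h1)
  have h4 : dist (g⁻¹ • y) (g⁻¹ • y') * (c * c) ≤ q.C * (q.s g * dist y y') :=
    (mul_le_mul_of_nonneg_left h3 dist_nonneg).trans h
  rw [div_mul_eq_mul_div, le_div_iff₀ (by positivity)]
  calc _ = dist (g⁻¹ • y) (g⁻¹ • y') * (c * c) := by ring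
    _ ≤ _ := h4

theorem inv_lower {Δ : ℝ} (hΔ1 : 1 ≤ Δ) (hΔ : ∀ x y : Z, dist x y ≤ Δ) (g : G) (y y' : Z) :
    q.s g * dist y y' ≤ q.C * Δ ^ 2 * dist (g⁻¹ • y) (g⁻¹ • y') := by
  have h := q.q1_lower g⁻¹ y y'
  rw [q.s_inv] at h
  have hs := q.s_le_one g
  have hs0 := q.s_pos g
  have h1 : max (q.s g) (dist y (q.ζ g⁻¹)) ≤ Δ := max_le (hs.trans hΔ1) (hΔ _ _)
  have h2 : max (q.s g) (dist y' (q.ζ g⁻¹)) ≤ Δ := max_le (hs.trans hΔ1) (hΔ _ _)
  have h3 : max (q.s g) (dist y (q.ζ g⁻¹)) * max (q.s g) (dist y' (q.ζ g⁻¹)) ≤ Δ * Δ :=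
    mul_le_mul h1 h2 (hs0.le.trans (le_max_left _ _)) (by linarith)
  have hC := q.one_le_C
  calc _ ≤ _ := h
    _ ≤ q.C * (dist (g⁻¹ • y) (g⁻¹ • y') * (Δ * Δ)) := by gcongr
    _ = _ := by ring

theorem inv_center {c : ℝ} (hc : 0 < c) (g : G) {y : Z} (hy : c ≤ dist y (q.ζ g⁻¹)) :
    dist (g⁻¹ • y) (q.ζ g) ≤ q.C / c * q.s g := by
  have h := q.q2_upper g⁻¹ y
  rw [q.s_inv, inv_inv] at h
  have h1 : c ≤ max (q.s g) (dist y (q.ζ g⁻¹)) := hy.trans (le_max_right _ _)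
  have h2 : dist (g⁻¹ • y) (q.ζ g) ≤ max (q.s g) (dist (g⁻¹ • y) (q.ζ g)) := le_max_right _ _
  have h3 : dist (g⁻¹ • y) (q.ζ g) * c ≤ q.C * q.s g :=
    (mul_le_mul h2 h1 hc.le (dist_nonneg.trans h2)).trans h
  rw [div_mul_eq_mul_div, le_div_iff₀ hc]
  exact h3

theorem inv_mem {c A ρ : ℝ} (hc : 0 < c) {z₀ : Z} {g : G} (hA : dist z₀ (q.ζ g) ≤ A * q.s g)
    (hρ : (q.C / c + A) * q.s g ≤ ρ) {y : Z} (hy : c ≤ dist y (q.ζ g⁻¹)) :
    g⁻¹ • y ∈ closedBall z₀ ρ := by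
  have h1 := inv_center q hc g hy
  have h2 := dist_triangle (g⁻¹ • y) (q.ζ g) z₀
  rw [dist_comm (q.ζ g) z₀] at h2
  rw [mem_closedBall]
  nlinarith

theorem wqs_zoom {f : Z → ℂ} {z₀ : Z} {ρ lam H Δ : ℝ} (hW : WQS f (closedBall z₀ ρ) lam H)
    (hlam : 0 ≤ lam) (hΔ1 : 1 ≤ Δ) (hΔ : ∀ x y : Z, dist x y ≤ Δ) {c : ℝ} (hc : 0 < c) (g : G)
    {X : Set Z} (hX : ∀ y ∈ X, c ≤ dist y (q.ζ g⁻¹) ∧ g⁻¹ • y ∈ closedBall z₀ ρ) :
    WQS (fun y => f (g⁻¹ • y)) X (lam * (q.C / c ^ 2 * (q.C * Δ ^ 2))) H := by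
  intro x hx y hy z hz hd
  refine hW _ (hX x hx).2 _ (hX y hy).2 _ (hX z hz).2 ?_
  have h1 := inv_upper q hc g (hX x hx).1 (hX y hy).1
  have h2 := inv_lower q hΔ1 hΔ g x z
  have hC := q.one_le_C
  have hs := q.s_pos g
  have hK : 0 < q.C * Δ ^ 2 := by positivity
  -- `s * dist x z ≤ C Δ² dist`
  have h3 : lam * dist (g⁻¹ • x) (g⁻¹ • y) * (q.C * Δ ^ 2) ≤ q.s g * dist x z := by
    calc lam * dist (g⁻¹ • x) (g⁻¹ • y) * (q.C * Δ ^ 2)
        ≤ lam * (q.C / c ^ 2 * (q.s g * dist x y)) * (q.C * Δ ^ 2) := by gcongr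
      _ = q.s g * (lam * (q.C / c ^ 2 * (q.C * Δ ^ 2)) * dist x y) := by ring
      _ ≤ q.s g * dist x z := by gcongr
  have h4 : lam * dist (g⁻¹ • x) (g⁻¹ • y) * (q.C * Δ ^ 2) ≤
      dist (g⁻¹ • x) (g⁻¹ • z) * (q.C * Δ ^ 2) := by
    calc _ ≤ _ := h3
      _ ≤ _ := h2
      _ = _ := by ring
  exact le_of_mul_le_mul_right h4 hK

theorem smul_far {A : ℝ} (hA1 : 0 ≤ A) {z₀ : Z} {g : G} (hA : dist z₀ (q.ζ g) ≤ A * q.s g)
    (hs : q.s g < 1 / (q.C * (A + 1))) {z : Z} (hz : dist z z₀ ≤ q.s g) :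
    1 / (q.C * (A + 1)) ≤ dist (g • z) (q.ζ g⁻¹) := by
  have h := q.q2_lower g z
  have hs0 := q.s_pos g
  have hC := q.one_le_C
  have h1 : max (q.s g) (dist z (q.ζ g)) ≤ (A + 1) * q.s g := by
    refine max_le (by nlinarith) ?_
    have := dist_triangle z z₀ (q.ζ g)
    nlinarith
  have h0 : 0 ≤ max (q.s g) (dist (g • z) (q.ζ g⁻¹)) := hs0.le.trans (le_max_left _ _)
  have h2 : q.s g ≤ q.C * (max (q.s g) (dist (g • z) (q.ζ g⁻¹)) * ((A + 1) * q.s g)) := by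
    calc _ ≤ _ := h
      _ ≤ _ := by gcongr
  have h3 : 1 ≤ max (q.s g) (dist (g • z) (q.ζ g⁻¹)) * (q.C * (A + 1)) := by
    have : q.s g * 1 ≤ q.s g * (max (q.s g) (dist (g • z) (q.ζ g⁻¹)) * (q.C * (A + 1))) := by
      calc q.s g * 1 = q.s g := mul_one _
        _ ≤ _ := h2
        _ = _ := by ring
    exact le_of_mul_le_mul_left this hs0
  have h4 : 1 / (q.C * (A + 1)) ≤ max (q.s g) (dist (g • z) (q.ζ g⁻¹)) := by
    rw [div_le_iff₀ (by positivity)]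
    exact h3
  rcases le_max_iff.1 h4 with h5 | h5
  · exact absurd h5 (not_le.2 hs)
  · exact h5

end inv

/-- `m` is the maximum of `|f - f z₀|` on the closed ball of radius `t` -/
def IsRad (f : Z → ℂ) (z₀ : Z) (t m : ℝ) : Prop :=
  (∃ z₁ ∈ closedBall z₀ t, ‖f z₁ - f z₀‖ = m) ∧ ∀ z ∈ closedBall z₀ t, ‖f z - f z₀‖ ≤ m

theorem exists_isRad [CompactSpace Z] {f : Z → ℂ} {z₀ : Z} {ρ t : ℝ}
    (hc : ContinuousOn f (closedBall z₀ ρ)) (ht0 : 0 ≤ t) (ht : t ≤ ρ) : ∃ m, IsRad f z₀ t m := by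
  have hK : IsCompact (closedBall z₀ t) := isClosed_closedBall.isCompact
  have hcont : ContinuousOn (fun z => ‖f z - f z₀‖) (closedBall z₀ t) :=
    ((hc.mono (closedBall_subset_closedBall ht)).sub continuousOn_const).norm
  obtain ⟨z₁, hz₁, hmax⟩ := hK.exists_isMaxOn ⟨z₀, mem_closedBall_self ht0⟩ hcont
  exact ⟨_, ⟨z₁, hz₁, rfl⟩, fun z hz => hmax hz⟩

theorem exists_dist_eq [ConnectedSpace Z] {x y : Z} {t : ℝ} (ht0 : 0 ≤ t) (ht : t ≤ dist x y) :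
    ∃ z, dist x z = t := by
  have hc : Continuous fun z : Z => dist x z := by fun_prop
  obtain ⟨z, -, hz⟩ := isPreconnected_univ.intermediate_value (mem_univ x) (mem_univ y)
    hc.continuousOn (show t ∈ Icc (dist x x) (dist x y) from ⟨by rw [dist_self]; exact ht0, ht⟩)
  exact ⟨z, hz⟩

theorem IsRad.pos [ConnectedSpace Z] {f : Z → ℂ} {z₀ : Z} {ρ t m : ℝ}
    (hinj : InjOn f (closedBall z₀ ρ)) (ht0 : 0 < t) (ht : t ≤ ρ) (hne : ∃ z : Z, z ≠ z₀)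
    (h : IsRad f z₀ t m) : 0 < m := by
  obtain ⟨y, hy⟩ := hne
  have hd : 0 < dist z₀ y := dist_pos.2 (Ne.symm hy)
  obtain ⟨z, hz⟩ := exists_dist_eq (x := z₀) (y := y) (t := min t (dist z₀ y))
    (le_min ht0.le hd.le) (min_le_right _ _)
  have hzt : z ∈ closedBall z₀ t := by
    rw [mem_closedBall, dist_comm, hz]
    exact min_le_left _ _
  have hzne : z ≠ z₀ := by
    rintro rfl
    rw [dist_self] at hz
    have := lt_min ht0 hd
    linarith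
  have h1 := h.2 z hzt
  have h2 : f z ≠ f z₀ := fun he => hzne (hinj (closedBall_subset_closedBall ht hzt)
    (mem_closedBall_self (ht0.le.trans ht)) he)
  have h3 : 0 < ‖f z - f z₀‖ := norm_pos_iff.2 (sub_ne_zero.2 h2)
  linarith

/-- the complement of a small ball about `β` is contained in a continuum which avoids a smaller
ball -/
theorem exists_omega [CompactSpace Z] (hP : Planar Z) {c : ℝ} (hc : 0 < c) :
    ∃ c' : ℝ, 0 < c' ∧ ∀ β : Z, ∃ Ω : Set Z, IsPreconnected Ω ∧ (∀ y, c ≤ dist y β → y ∈ Ω) ∧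
      ∀ y ∈ Ω, c' ≤ dist y β := by
  obtain ⟨c', hc', h⟩ := hP.t2 c hc
  refine ⟨c', hc', fun β => ?_⟩
  obtain ⟨Ω, -, hconn, hdisj, hdiam⟩ := h β
  refine ⟨Ω, hconn.isPreconnected, ?_, ?_⟩
  · intro y hy
    by_contra hyΩ
    have hβ : β ∈ Ωᶜ := fun hβ => Set.disjoint_left.1 hdisj hβ (mem_ball_self hc')
    have hb : Bornology.IsBounded (Ωᶜ) := isBounded_of_compactSpace
    have := dist_le_diam_of_mem hb (show y ∈ Ωᶜ from hyΩ) hβ
    linarith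
  · intro y hy
    by_contra hlt
    push Not at hlt
    exact Set.disjoint_left.1 hdisj hy (mem_ball.2 hlt)

theorem exists_diam [CompactSpace Z] : ∃ Δ : ℝ, 1 ≤ Δ ∧ ∀ x y : Z, dist x y ≤ Δ :=
  ⟨max 1 (diam (univ : Set Z)), le_max_left _ _, fun x y =>
    (dist_le_diam_of_mem isBounded_of_compactSpace (mem_univ x) (mem_univ y)).trans
      (le_max_right _ _)⟩

section main

variable [CompactSpace Z] [ConnectedSpace Z] (q : QM G Z) (hP : Planar Z)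
  {f : Z → ℂ} {z₀ : Z} {ρ lam H : ℝ} (hf : LChart f z₀ ρ lam H) (hlam : 1 ≤ lam) (hH : 1 ≤ H)
  {A : ℝ} (hA1 : 1 ≤ A) (hne : ∃ z : Z, z ≠ z₀)

include hP hf hlam hH hA1 hne

/-- (E1) boundedness, together with (E2) the lower bound -/
theorem bound_lower {c : ℝ} (hc : 0 < c) :
    ∃ σ : ℝ, 0 < σ ∧ (∀ g : G, q.s g ≤ σ → dist z₀ (q.ζ g) ≤ A * q.s g → ∀ y,
        c ≤ dist y (q.ζ g⁻¹) → g⁻¹ • y ∈ closedBall z₀ ρ) ∧
      (∃ B : ℝ, 0 < B ∧ ∀ g : G, q.s g ≤ σ → dist z₀ (q.ζ g) ≤ A * q.s g →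
        ∀ m, IsRad f z₀ (q.s g) m → ∀ y, c ≤ dist y (q.ζ g⁻¹) →
          ‖f (g⁻¹ • y) - f z₀‖ ≤ B * m) ∧
      ∀ δ : ℝ, 0 < δ → ∃ τ : ℝ, 0 < τ ∧ ∀ g : G, q.s g ≤ σ → dist z₀ (q.ζ g) ≤ A * q.s g →
        ∀ m, IsRad f z₀ (q.s g) m → ∀ y y', c ≤ dist y (q.ζ g⁻¹) → c ≤ dist y' (q.ζ g⁻¹) →
          δ ≤ dist y y' → τ * m ≤ ‖f (g⁻¹ • y) - f (g⁻¹ • y')‖ := by
  obtain ⟨Δ, hΔ1, hΔ⟩ := exists_diam (Z := Z)
  have hC := q.one_le_C
  have hρ := hf.pos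
  set c₀ : ℝ := 1 / (q.C * (A + 1)) with hc₀
  have hc₀pos : 0 < c₀ := by positivity
  -- it suffices to work with `c₁ = min c c₀`
  set c₁ := min c c₀ with hc₁
  have hc₁pos : 0 < c₁ := lt_min hc hc₀pos
  obtain ⟨c', hc', hΩ⟩ := exists_omega hP hc₁pos
  set lam' : ℝ := lam * (q.C / c' ^ 2 * (q.C * Δ ^ 2)) with hlam'
  have hlam'pos : 0 < lam' := by positivity
  -- the threshold
  set σ : ℝ := min (c₀ / 2) (min ρ (ρ / (q.C / c' + A))) with hσ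
  have hσpos : 0 < σ := by
    have : 0 < q.C / c' + A := by positivity
    positivity
  have hthr : ∀ g : G, q.s g ≤ σ → q.s g < c₀ ∧ q.s g ≤ ρ ∧ (q.C / c' + A) * q.s g ≤ ρ := by
    intro g hg
    have h1 : q.s g ≤ c₀ / 2 := hg.trans (min_le_left _ _)
    have h2 : q.s g ≤ ρ := hg.trans ((min_le_right _ _).trans (min_le_left _ _))
    have h3 : q.s g ≤ ρ / (q.C / c' + A) :=
      hg.trans ((min_le_right _ _).trans (min_le_right _ _))
    have h4 : 0 < q.C / c' + A := by positivity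
    rw [le_div_iff₀ h4] at h3
    exact ⟨by linarith, h2, by linarith⟩
  -- common facts for an admissible `g`
  have key : ∀ g : G, q.s g ≤ σ → dist z₀ (q.ζ g) ≤ A * q.s g → ∀ m, IsRad f z₀ (q.s g) m →
      ∃ Ω : Set Z, IsPreconnected Ω ∧ (∀ y, c ≤ dist y (q.ζ g⁻¹) → y ∈ Ω) ∧
        (∀ y ∈ Ω, c' ≤ dist y (q.ζ g⁻¹)) ∧ (∀ y ∈ Ω, g⁻¹ • y ∈ closedBall z₀ ρ) ∧
        WQS (fun y => f (g⁻¹ • y)) Ω lam' H ∧ ContinuousOn (fun y => f (g⁻¹ • y)) Ω ∧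
        (∀ z, dist z z₀ ≤ q.s g → g • z ∈ Ω) ∧ 0 < m := by
    intro g hg hgA m hm
    obtain ⟨h1, h2, h3⟩ := hthr g hg
    obtain ⟨Ω, hΩc, hΩ1, hΩ2⟩ := hΩ (q.ζ g⁻¹)
    have hmem : ∀ y ∈ Ω, g⁻¹ • y ∈ closedBall z₀ ρ := fun y hy =>
      inv_mem q hc' hgA h3 (hΩ2 y hy)
    refine ⟨Ω, hΩc, fun y hy => hΩ1 y ((min_le_left _ _).trans hy), hΩ2, hmem, ?_, ?_, ?_, ?_⟩
    · exact wqs_zoom q hf.wqs (by linarith) hΔ1 hΔ hc' g fun y hy => ⟨hΩ2 y hy, hmem y hy⟩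
    · refine hf.cont.comp ?_ hmem
      -- the action of `g⁻¹` is continuous
      have hlip : ∀ x y : Z, dist (g⁻¹ • x) (g⁻¹ • y) ≤ q.C / q.s g * dist x y := by
        intro x y
        have h := q.q1_upper g⁻¹ x y
        rw [q.s_inv] at h
        have hs := q.s_pos g
        have e1 : q.s g ≤ max (q.s g) (dist x (q.ζ g⁻¹)) := le_max_left _ _
        have e2 : q.s g ≤ max (q.s g) (dist y (q.ζ g⁻¹)) := le_max_left _ _
        have e3 : q.s g * q.s g ≤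
            max (q.s g) (dist x (q.ζ g⁻¹)) * max (q.s g) (dist y (q.ζ g⁻¹)) :=
          mul_le_mul e1 e2 hs.le (hs.le.trans e1)
        have e4 : dist (g⁻¹ • x) (g⁻¹ • y) * (q.s g * q.s g) ≤ q.C * (q.s g * dist x y) :=
          (mul_le_mul_of_nonneg_left e3 dist_nonneg).trans h
        rw [div_mul_eq_mul_div, le_div_iff₀ hs]
        have : q.s g * (dist (g⁻¹ • x) (g⁻¹ • y) * q.s g) ≤ q.s g * (q.C * dist x y) := by
          calc _ = dist (g⁻¹ • x) (g⁻¹ • y) * (q.s g * q.s g) := by ring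
            _ ≤ _ := e4
            _ = _ := by ring
        exact le_of_mul_le_mul_left this hs
      have hK : 0 ≤ q.C / q.s g := by have := q.s_pos g; positivity
      exact (LipschitzWith.of_dist_le_mul (K := ⟨_, hK⟩) hlip).continuous.continuousOn
    · intro z hz
      exact hΩ1 _ ((min_le_right _ _).trans (smul_far q (by linarith) hgA h1 hz))
    · exact hm.pos hf.inj (q.s_pos g) h2 hne
  refine ⟨σ, hσpos, ?_, ?_, ?_⟩
  · intro g hg hgA y hy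
    obtain ⟨h1, h2, h3⟩ := hthr g hg
    obtain ⟨m, hm⟩ := exists_isRad hf.cont (q.s_pos g).le h2
    obtain ⟨Ω, -, hΩ1, -, hmem, -⟩ := key g hg hgA m hm
    exact hmem y (hΩ1 y hy)
  · -- (E1)
    obtain ⟨N, hN⟩ := exists_packing (X := (univ : Set Z)) isCompact_univ.totallyBounded
      (ε := c' ^ 2 / q.C / lam') (by positivity)
    refine ⟨(2 + H) ^ (N + 1), by positivity, ?_⟩
    intro g hg hgA m hm y hy
    obtain ⟨Ω, hΩc, hΩ1, hΩ2, hmem, hW, hcont, hpt, hmpos⟩ := key g hg hgA m hm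
    have hp : g • z₀ ∈ Ω := hpt z₀ (by rw [dist_self]; exact (q.s_pos g).le)
    have := growth (f := fun y => f (g⁻¹ • y)) hW hlam'pos (by linarith) (subset_refl Ω) hΩc hcont
      hp (r := c' ^ 2 / q.C) hmpos (by
        intro w hw hd
        show ‖f (g⁻¹ • w) - f (g⁻¹ • g • z₀)‖ ≤ m
        rw [inv_smul_smul]
        refine hm.2 _ ?_
        have h1 := inv_upper q hc' g (hΩ2 w hw) (hΩ2 _ hp)
        rw [inv_smul_smul, dist_comm w] at h1
        rw [mem_closedBall]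
        refine h1.trans ?_
        have hs := q.s_pos g
        calc q.C / c' ^ 2 * (q.s g * dist (g • z₀) w)
            ≤ q.C / c' ^ 2 * (q.s g * (c' ^ 2 / q.C)) := by gcongr
          _ = q.s g := by field_simp) (N := N) (by
        intro J x _ hsep
        exact hN J x (fun i _ => mem_univ _) hsep) y (hΩ1 y hy)
    simp only [inv_smul_smul] at this
    linarith
  · -- (E2)
    intro δ hδ
    obtain ⟨N, hN⟩ := exists_packing (X := (univ : Set Z)) isCompact_univ.totallyBounded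
      (ε := δ / lam' / lam') (by positivity)
    refine ⟨1 / (2 * (H * (2 + H) ^ (N + 1))), by positivity, ?_⟩
    intro g hg hgA m hm y y' hy hy' hyy'
    obtain ⟨Ω, hΩc, hΩ1, hΩ2, hmem, hW, hcont, hpt, hmpos⟩ := key g hg hgA m hm
    obtain ⟨z₁, hz₁, hz₁m⟩ := hm.1
    have hp : g • z₀ ∈ Ω := hpt z₀ (by rw [dist_self]; exact (q.s_pos g).le)
    have hp1 : g • z₁ ∈ Ω := hpt z₁ hz₁
    have hyΩ := hΩ1 y hy
    have hy'Ω := hΩ1 y' hy'
    set v := ‖f (g⁻¹ • y') - f (g⁻¹ • y)‖ with hv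
    have hne' : f (g⁻¹ • y') ≠ f (g⁻¹ • y) := by
      intro he
      have h1 := hf.inj (hmem y' hy'Ω) (hmem y hyΩ) he
      have h2 : y' = y := by
        have := congrArg (fun z => g • z) h1
        simpa using this
      rw [h2, dist_self] at hyy'
      linarith
    have hvpos : 0 < v := norm_pos_iff.2 (sub_ne_zero.2 hne')
    have hgr := growth (f := fun y => f (g⁻¹ • y)) hW hlam'pos (by linarith) (subset_refl Ω) hΩc
      hcont hyΩ (r := δ / lam') (m := H * v) (by positivity) (by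
        intro w hw hd
        refine hW y hyΩ w hw y' hy'Ω ?_
        rw [le_div_iff₀ hlam'pos] at hd
        linarith [mul_comm lam' (dist y w)]) (N := N) (by
        intro J x _ hsep
        exact hN J x (fun i _ => mem_univ _) hsep)
    have h1 := hgr _ hp
    have h2 := hgr _ hp1
    simp only [inv_smul_smul] at h1 h2
    have h3 : m ≤ 2 * (H * v * (2 + H) ^ (N + 1)) := by
      rw [← hz₁m]
      have e : f z₁ - f z₀ = (f z₁ - f (g⁻¹ • y)) - (f z₀ - f (g⁻¹ • y)) := by ring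
      rw [e]
      refine (norm_sub_le _ _).trans ?_
      linarith
    rw [norm_sub_rev, ← hv, div_mul_eq_mul_div, one_mul, div_le_iff₀ (by positivity)]
    linarith

end main

end P198G
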