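import Vale.Agent.P198.GC.Estimates

/-!
# P198, Stage 2, block GC: equicontinuity and properness of zoomed charts
-/

namespace P198G

open Metric Set Filter Topology P198Q

variable {G Z : Type*} [Group G] [MetricSpace Z] [MulAction G Z]

section main

variable [CompactSpace Z] [ConnectedSpace Z] (q : QM G Z) (hP : Planar Z)
  {f : Z → ℂ} {z₀ : Z} {ρ lam H : ℝ} (hf : LChart f z₀ ρ lam H) (hlam : 1 ≤ lam) (hH : 1 ≤ H)
  {A : ℝ} (hA1 : 1 ≤ A) (hne : ∃ z : Z, z ≠ z₀)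

include hP hf hlam hH hA1 hne

/-- (E3) equicontinuity -/
theorem equicont {c : ℝ} (hc : 0 < c) {ε : ℝ} (hε : 0 < ε) :
    ∃ δ σ : ℝ, 0 < δ ∧ 0 < σ ∧ ∀ g : G, q.s g ≤ σ → dist z₀ (q.ζ g) ≤ A * q.s g →
      ∀ m, IsRad f z₀ (q.s g) m → ∀ y y', c ≤ dist y (q.ζ g⁻¹) → dist y y' ≤ δ →
        ‖f (g⁻¹ • y') - f (g⁻¹ • y)‖ ≤ ε * m := by
  obtain ⟨Δ, hΔ1, hΔ⟩ := exists_diam (Z := Z)
  have hC := q.one_le_C
  obtain ⟨σ, hσ, hmem, ⟨B, hB, hbd⟩, -⟩ :=
    bound_lower q hP hf hlam hH hA1 hne (c := c / 2) (half_pos hc)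
  obtain ⟨w, hw⟩ := hne
  have hη : 0 < dist w z₀ := dist_pos.2 hw
  set lam' : ℝ := lam * (q.C / (c / 2) ^ 2 * (q.C * Δ ^ 2)) with hlam'
  have hlam'pos : 0 < lam' := by positivity
  obtain ⟨κ, hκ, hdec⟩ := decay (Z := Z) hlam'pos (by linarith : 0 < H)
    (ε := ε / (2 * B)) (by positivity)
  set R : ℝ := min (c / 2) (dist w z₀ / 2) with hR
  have hRpos : 0 < R := by positivity
  refine ⟨min (κ * R) (c / 2), min σ ρ, by positivity, lt_min hσ hf.pos, ?_⟩
  intro g hg hgA m hm y y' hy hyy'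
  have hgσ : q.s g ≤ σ := hg.trans (min_le_left _ _)
  have hmpos : 0 < m := hm.pos hf.inj (q.s_pos g) (hg.trans (min_le_right _ _)) ⟨w, hw⟩
  have hball : ∀ x, dist y x ≤ c / 2 → c / 2 ≤ dist x (q.ζ g⁻¹) := by
    intro x hx
    have := dist_triangle y x (q.ζ g⁻¹)
    linarith
  set X : Set Z := {x | c / 2 ≤ dist x (q.ζ g⁻¹)} with hX
  have hW : WQS (fun y => f (g⁻¹ • y)) X lam' H :=
    wqs_zoom q hf.wqs (by linarith) hΔ1 hΔ (half_pos hc) g fun x hx => ⟨hx, hmem g hgσ hgA x hx⟩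
  have hyX : y ∈ X := hball y (by rw [dist_self]; positivity)
  have h := hdec (fun y => f (g⁻¹ • y)) X hW y R (2 * B * m) hRpos (by positivity) (by
      intro x hx
      rw [mem_closedBall, dist_comm] at hx
      exact hball x (hx.trans (min_le_left _ _))) (by
      -- a far point
      by_cases h1 : R ≤ dist y w
      · exact ⟨w, h1⟩
      · refine ⟨z₀, ?_⟩
        push Not at h1
        have h2 := dist_triangle w y z₀
        have h3 : R ≤ dist w z₀ / 2 := min_le_right _ _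
        rw [dist_comm w y] at h2
        linarith) (by
      intro x hx
      rw [mem_closedBall, dist_comm] at hx
      have h1 := hbd g hgσ hgA m hm x (hball x (hx.trans (min_le_left _ _)))
      have h2 := hbd g hgσ hgA m hm y hyX
      have e : f (g⁻¹ • x) - f (g⁻¹ • y) = (f (g⁻¹ • x) - f z₀) - (f (g⁻¹ • y) - f z₀) := by ring
      show ‖f (g⁻¹ • x) - f (g⁻¹ • y)‖ ≤ _
      rw [e]
      refine (norm_sub_le _ _).trans ?_
      linarith) y' (hball y' (hyy'.trans (min_le_right _ _))) (hyy'.trans (min_le_left _ _))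
  calc _ ≤ _ := h
    _ = ε * m := by field_simp

/-- (E4) properness -/
theorem proper {M : ℝ} (hM : 0 < M) :
    ∃ c σ : ℝ, 0 < c ∧ 0 < σ ∧ ∀ g : G, q.s g ≤ σ → dist z₀ (q.ζ g) ≤ A * q.s g →
      ∀ m, IsRad f z₀ (q.s g) m → ∀ y, dist y (q.ζ g⁻¹) ≤ c → g⁻¹ • y ∈ closedBall z₀ ρ →
        M * m ≤ ‖f (g⁻¹ • y) - f z₀‖ := by
  obtain ⟨Δ, hΔ1, hΔ⟩ := exists_diam (Z := Z)
  have hC := q.one_le_C
  set c₀ : ℝ := 1 / (q.C * (A + 1)) with hc₀
  have hc₀pos : 0 < c₀ := by positivity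
  obtain ⟨κ, hκ, hdec⟩ := decay (Z := Z) (lam := lam) (H := H) (by linarith) (by linarith)
    (ε := 1 / (M * H)) (by positivity)
  -- smallness threshold
  set η : ℝ := c₀ * κ / (2 * q.C * Δ * lam) with hη
  have hηpos : 0 < η := by positivity
  refine ⟨min (c₀ / 2) η, min (c₀ / 2) (min η ρ), by positivity,
    lt_min (by positivity) (lt_min hηpos hf.pos), ?_⟩
  intro g hg hgA m hm y hy hymem
  have hs := q.s_pos g
  have hg1 : q.s g ≤ c₀ / 2 := hg.trans (min_le_left _ _)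
  have hg2 : q.s g ≤ η := hg.trans ((min_le_right _ _).trans (min_le_left _ _))
  have hg3 : q.s g ≤ ρ := hg.trans ((min_le_right _ _).trans (min_le_right _ _))
  have hy1 : dist y (q.ζ g⁻¹) ≤ c₀ / 2 := hy.trans (min_le_left _ _)
  have hy2 : dist y (q.ζ g⁻¹) ≤ η := hy.trans (min_le_right _ _)
  -- `g • z₀` is far from the pole
  have hfar : c₀ ≤ dist (g • z₀) (q.ζ g⁻¹) :=
    smul_far q (by linarith) hgA (by linarith) (by rw [dist_self]; exact hs.le)
  have hyz : c₀ / 2 ≤ dist y (g • z₀) := by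
    have := dist_triangle (g • z₀) y (q.ζ g⁻¹)
    rw [dist_comm (g • z₀) y] at this
    linarith
  -- lower bound for `t = dist (g⁻¹ y) z₀`
  set t := dist z₀ (g⁻¹ • y) with ht
  have hlow := q.q1_lower g⁻¹ y (g • z₀)
  rw [q.s_inv, inv_smul_smul, dist_comm (g⁻¹ • y) z₀, ← ht] at hlow
  have hm1 : max (q.s g) (dist y (q.ζ g⁻¹)) ≤ η := max_le hg2 hy2
  have hm2 : max (q.s g) (dist (g • z₀) (q.ζ g⁻¹)) ≤ Δ :=
    max_le ((q.s_le_one g).trans hΔ1) (hΔ _ _)
  have ht0 : 0 ≤ t := dist_nonneg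
  have hlow2 : q.s g * (c₀ / 2) ≤ q.C * (t * (η * Δ)) := by
    calc q.s g * (c₀ / 2) ≤ q.s g * dist y (g • z₀) := by gcongr
      _ ≤ _ := hlow
      _ ≤ q.C * (t * (η * Δ)) := by
        have h0 : 0 ≤ max (q.s g) (dist (g • z₀) (q.ζ g⁻¹)) := hs.le.trans (le_max_left _ _)
        gcongr
  have hlow3 : q.s g ≤ κ * (t / lam) := by
    have e : q.C * (t * (η * Δ)) = (c₀ / 2) * (κ * (t / lam)) := by
      rw [hη]
      field_simp
    rw [e] at hlow2
    have : (c₀ / 2) * q.s g ≤ (c₀ / 2) * (κ * (t / lam)) := by linarith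
    exact le_of_mul_le_mul_left this (by positivity)
  have htpos : 0 < t := by
    by_contra h
    have h' : t = 0 := le_antisymm (not_lt.1 h) ht0
    rw [h'] at hlow3
    simp at hlow3
    linarith
  set v := ‖f (g⁻¹ • y) - f z₀‖ with hv
  have hvpos : 0 < v := by
    refine norm_pos_iff.2 (sub_ne_zero.2 fun he => ?_)
    have := hf.inj hymem (mem_closedBall_self hf.pos.le) he
    rw [ht, this, dist_self] at htpos
    exact lt_irrefl _ htpos
  have htρ : t ≤ ρ := by rw [ht, dist_comm]; exact hymem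
  have hz₀mem : z₀ ∈ closedBall z₀ ρ := mem_closedBall_self hf.pos.le
  have htl : t / lam ≤ t := div_le_self ht0 hlam
  have hsub : closedBall z₀ (t / lam) ⊆ closedBall z₀ ρ :=
    closedBall_subset_closedBall (htl.trans htρ)
  obtain ⟨⟨z₁, hz₁, hz₁m⟩, -⟩ := hm
  have h := hdec f (closedBall z₀ ρ) hf.wqs z₀ (t / lam) (H * v) (by positivity) (by positivity)
    hsub ⟨g⁻¹ • y, htl⟩ (by
      intro x hx
      refine hf.wqs z₀ hz₀mem x (hsub hx) _ hymem ?_
      rw [mem_closedBall, dist_comm, le_div_iff₀ (by linarith)] at hx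
      linarith [mul_comm lam (dist z₀ x)]) z₁ (closedBall_subset_closedBall hg3 hz₁) (by
      rw [dist_comm]
      exact (mem_closedBall.1 hz₁).trans hlow3)
  rw [hz₁m] at h
  have e : 1 / (M * H) * (H * v) = v / M := by field_simp
  rw [e, le_div_iff₀ hM] at h
  linarith

omit [CompactSpace Z] [ConnectedSpace Z] hP hlam hH hA1 hne in
/-- (E5) the radii tend to `0` -/
theorem rad_small {ε : ℝ} (hε : 0 < ε) :
    ∃ σ : ℝ, 0 < σ ∧ ∀ t m, t ≤ σ → IsRad f z₀ t m → m < ε := by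
  have hc : ContinuousWithinAt f (closedBall z₀ ρ) z₀ :=
    hf.cont z₀ (mem_closedBall_self hf.pos.le)
  obtain ⟨δ, hδ, h⟩ := Metric.continuousWithinAt_iff.1 hc ε hε
  refine ⟨min (δ / 2) ρ, lt_min (half_pos hδ) hf.pos, ?_⟩
  rintro t m ht ⟨⟨z₁, hz₁, rfl⟩, -⟩
  have h1 : dist z₁ z₀ ≤ min (δ / 2) ρ := (mem_closedBall.1 hz₁).trans ht
  have h2 := h (mem_closedBall.2 (h1.trans (min_le_right _ _)))
    (lt_of_le_of_lt (h1.trans (min_le_left _ _)) (half_lt_self hδ))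
  rwa [dist_eq_norm] at h2

end main

end P198G
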