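import Vale.Agent.P198.GC.Defs

/-!
# P198, Stage 2, block GC: elementary estimates for weakly quasisymmetric maps
-/

namespace P198G

open Metric Set Filter Topology

variable {Z : Type*} [MetricSpace Z]

/-- packing bound -/
theorem exists_packing {E : Type*} [PseudoMetricSpace E] {X : Set E} (hX : TotallyBounded X)
    {ε : ℝ} (hε : 0 < ε) :
    ∃ N : ℕ, ∀ (J : ℕ) (x : ℕ → E), (∀ i < J, x i ∈ X) →
      (∀ i j, i < j → j < J → ε ≤ dist (x i) (x j)) → J ≤ N := by
  classical
  obtain ⟨t, ht, hcov⟩ := Metric.totallyBounded_iff.1 hX (ε / 2) (half_pos hε)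
  refine ⟨ht.toFinset.card, fun J x hx hsep => ?_⟩
  by_contra hlt
  push Not at hlt
  have hmem : ∀ i < J, ∃ y ∈ t, dist (x i) y < ε / 2 := by
    intro i hi
    have := hcov (hx i hi)
    simpa using this
  have : Nonempty E := ⟨x 0⟩
  choose! φ hφt hφd using hmem
  have hcard : ht.toFinset.card < (Finset.range J).card := by rwa [Finset.card_range]
  obtain ⟨i, hi, j, hj, hne, heq⟩ := Finset.exists_ne_map_eq_of_card_lt_of_maps_to hcard
    (f := φ) (by
      intro i hi
      have hi' : i < J := by simpa using hi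
      simpa using hφt i hi')
  rw [Finset.mem_range] at hi hj
  have key : ∀ i j, i < J → j < J → φ i = φ j → dist (x i) (x j) < ε := by
    intro i j hi hj h
    have h1 := hφd i hi
    have h2 := hφd j hj
    rw [← h, dist_comm] at h2
    have := dist_triangle (x i) (φ i) (x j)
    linarith
  rcases lt_or_gt_of_ne hne with h | h
  · exact absurd (key i j hi hj heq) (not_lt.2 (hsep i j h hj))
  · exact absurd (key j i hj hi heq.symm) (not_lt.2 (hsep j i h hi))

/-- growth (Harnack chain): a weakly quasisymmetric map which is bounded by `m` on a ball is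
bounded by `m (2 + H)^(N+1)` on the whole connected set. -/
theorem growth {f : Z → ℂ} {X Ω : Set Z} {lam H : ℝ} (hW : WQS f X lam H) (hlam : 0 < lam)
    (hH : 0 ≤ H) (hΩX : Ω ⊆ X) (hΩ : IsPreconnected Ω) (hcont : ContinuousOn f Ω)
    {p : Z} (hp : p ∈ Ω) {r m : ℝ} (hm0 : 0 < m)
    (hm : ∀ w ∈ Ω, dist p w ≤ r → ‖f w - f p‖ ≤ m) {N : ℕ}
    (hN : ∀ (J : ℕ) (x : ℕ → Z), (∀ i < J, x i ∈ Ω) →
      (∀ i j, i < j → j < J → r / lam ≤ dist (x i) (x j)) → J ≤ N) :
    ∀ w ∈ Ω, ‖f w - f p‖ ≤ m * (2 + H) ^ (N + 1) := by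
  intro w hw
  by_contra hlt
  push Not at hlt
  set v : Z → ℝ := fun w => ‖f w - f p‖ with hv
  have hvc : ContinuousOn v Ω := (hcont.sub continuousOn_const).norm
  have hq : (1 : ℝ) < 2 + H := by linarith
  have hpts : ∀ i, i < N + 1 → ∃ x ∈ Ω, v x = m * (2 + H) ^ (i + 1) := by
    intro i hi
    have h1 : m * (2 + H) ^ (i + 1) ≤ m * (2 + H) ^ (N + 1) := by
      gcongr
      · exact hq.le
      · omega
    have h2 : m * (2 + H) ^ (i + 1) ∈ Icc (v p) (v w) := by
      refine ⟨?_, h1.trans hlt.le⟩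
      have : v p = 0 := by simp [hv]
      rw [this]
      positivity
    obtain ⟨x, hx, hxe⟩ := hΩ.intermediate_value hp hw hvc h2
    exact ⟨x, hx, hxe⟩
  have : Nonempty Z := ⟨p⟩
  choose! x hxΩ hxv using hpts
  have hJ := hN (N + 1) x hxΩ ?_
  · omega
  · intro i j hij hj
    have hi : i < N + 1 := hij.trans hj
    by_contra hd
    push Not at hd
    rw [lt_div_iff₀ hlam] at hd
    -- `x i` is far from `p`
    have hfar : r < dist p (x i) := by
      by_contra hle
      push Not at hle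
      have h1 := hm (x i) (hxΩ i hi) hle
      have h2 : v (x i) = m * (2 + H) ^ (i + 1) := hxv i hi
      have h3 : m < m * (2 + H) ^ (i + 1) := by
        have : (1 : ℝ) < (2 + H) ^ (i + 1) := one_lt_pow₀ hq (by omega)
        nlinarith
      have h4 : v (x i) ≤ m := h1
      linarith
    have h1 := hW (x i) (hΩX (hxΩ i hi)) (x j) (hΩX (hxΩ j hj)) p (hΩX hp) (by
      rw [dist_comm (x i) p]
      linarith [mul_comm lam (dist (x i) (x j))])
    have h2 : v (x i) = m * (2 + H) ^ (i + 1) := hxv i hi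
    have h3 : v (x j) = m * (2 + H) ^ (j + 1) := hxv j hj
    have h4 : v (x j) ≤ (1 + H) * v (x i) := by
      have e1 : f (x j) - f p = (f (x j) - f (x i)) + (f (x i) - f p) := by ring
      have e2 : v (x j) ≤ ‖f (x j) - f (x i)‖ + v (x i) := by
        show ‖f (x j) - f p‖ ≤ _
        rw [e1]
        exact norm_add_le _ _
      have e3 : ‖f p - f (x i)‖ = v (x i) := norm_sub_rev _ _
      rw [e3] at h1
      linarith
    have h5 : (2 + H) * v (x i) ≤ v (x j) := by
      rw [h2, h3]
      have : m * (2 + H) ^ (i + 2) ≤ m * (2 + H) ^ (j + 1) :=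
        mul_le_mul_of_nonneg_left (pow_le_pow_right₀ hq.le (by omega)) hm0.le
      calc (2 + H) * (m * (2 + H) ^ (i + 1)) = m * (2 + H) ^ (i + 2) := by ring
        _ ≤ _ := this
    have h6 : 0 < v (x i) := by rw [h2]; positivity
    nlinarith

/-- decay: a weakly quasisymmetric map has small oscillation on small balls -/
theorem decay [ConnectedSpace Z] {lam H : ℝ} (hlam : 0 < lam) (hH : 0 < H) {ε : ℝ} (hε : 0 < ε) :
    ∃ κ : ℝ, 0 < κ ∧ ∀ (f : Z → ℂ) (X : Set Z) (_ : WQS f X lam H) (y : Z) (R B : ℝ) (_ : 0 < R)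
      (_ : 0 < B) (_ : closedBall y R ⊆ X) (_ : ∃ z, R ≤ dist y z)
      (_ : ∀ x ∈ closedBall y R, ‖f x - f y‖ ≤ B),
      ∀ y' ∈ X, dist y y' ≤ κ * R → ‖f y' - f y‖ ≤ ε * B := by
  obtain ⟨N, hN⟩ := exists_packing (X := closedBall (0 : ℂ) 1)
    (isCompact_closedBall 0 1).totallyBounded (ε := ε / H ^ 2) (by positivity)
  set a : ℝ := 1 / (lam + 1) with ha
  have ha0 : 0 < a := by positivity
  have ha1 : a ≤ 1 := by
    rw [ha, div_le_one (by linarith)]
    linarith
  refine ⟨a ^ N / lam, by positivity, ?_⟩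
  intro f X hW y R B hR hB hX hfar hbd y' hy' hyy'
  by_contra hlt
  push Not at hlt
  obtain ⟨z, hz⟩ := hfar
  have hyX : y ∈ X := hX (mem_closedBall_self hR.le)
  -- points at prescribed distances
  have hpts : ∀ i : ℕ, ∃ x : Z, dist y x = R * a ^ i := by
    intro i
    have h1 : R * a ^ i ∈ Icc (dist y y) (dist y z) := by
      refine ⟨by rw [dist_self]; positivity, ?_⟩
      have : a ^ i ≤ 1 := pow_le_one₀ ha0.le ha1
      nlinarith
    have hc : Continuous fun x : Z => dist y x := by fun_prop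
    obtain ⟨x, -, hx⟩ := isPreconnected_univ.intermediate_value (mem_univ y) (mem_univ z)
      hc.continuousOn h1
    exact ⟨x, hx⟩
  choose x hx using hpts
  have hxX : ∀ i, x i ∈ X := by
    intro i
    apply hX
    rw [mem_closedBall, dist_comm, hx i]
    have : a ^ i ≤ 1 := pow_le_one₀ ha0.le ha1
    nlinarith
  have hxB : ∀ i, ‖f (x i) - f y‖ ≤ B := by
    intro i
    apply hbd
    rw [mem_closedBall, dist_comm, hx i]
    have : a ^ i ≤ 1 := pow_le_one₀ ha0.le ha1
    nlinarith
  have hJ := hN (N + 1) (fun i => (f (x i) - f y) / B) (by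
    intro i _
    rw [mem_closedBall, dist_zero_right, norm_div, Complex.norm_real, Real.norm_eq_abs,
      abs_of_pos hB, div_le_one hB]
    exact hxB i) (by
    intro i j hij hj
    -- first `‖f y' - f y‖ ≤ H ‖f (x j) - f y‖`
    have h1 := hW y hyX y' hy' (x j) (hxX j) (by
      rw [hx j]
      have hle : a ^ N ≤ a ^ j := pow_le_pow_of_le_one ha0.le ha1 (by omega)
      calc lam * dist y y' ≤ lam * (a ^ N / lam * R) := by gcongr
        _ = R * a ^ N := by field_simp
        _ ≤ R * a ^ j := by gcongr)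
    have h2 := hW (x j) (hxX j) y hyX (x i) (hxX i) (by
      have hd : dist y (x i) ≤ dist y (x j) + dist (x j) (x i) := dist_triangle _ _ _
      rw [hx i, hx j] at hd
      rw [dist_comm (x j) y, hx j]
      have e1 : a ^ j ≤ a ^ (i + 1) := pow_le_pow_of_le_one ha0.le ha1 (by omega)
      have e2 : (lam + 1) * a = 1 := by rw [ha]; field_simp
      have e3 : (lam + 1) * a ^ j ≤ a ^ i := by
        calc (lam + 1) * a ^ j ≤ (lam + 1) * a ^ (i + 1) := by gcongr
          _ = a ^ i * ((lam + 1) * a) := by ring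
          _ = a ^ i := by rw [e2, mul_one]
      have e4 : R * ((lam + 1) * a ^ j) ≤ R * a ^ i := by gcongr
      nlinarith)
    have h3 : dist ((f (x i) - f y) / B) ((f (x j) - f y) / (B : ℂ)) = ‖f (x i) - f (x j)‖ / B := by
      rw [dist_eq_norm, ← sub_div, norm_div, Complex.norm_real, Real.norm_eq_abs, abs_of_pos hB]
      congr 2
      ring
    rw [h3, div_le_div_iff₀ (by positivity) hB]
    have h4 : ‖f y - f (x j)‖ = ‖f (x j) - f y‖ := norm_sub_rev _ _
    rw [h4] at h2
    have h5 : ‖f y' - f y‖ ≤ H * (H * ‖f (x i) - f (x j)‖) := by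
      refine h1.trans ?_
      gcongr
    nlinarith)
  omega

end P198G
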